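import Vale.Agent.DirFin.Kaplansky

/-! Direct finiteness over fields of characteristic zero. -/

set_option linter.unusedSectionVars false

namespace Vale.Agent.DirFin

/-- group ring element with given support list and coefficients -/
noncomputable def el {R : Type*} [Ring R] {G : Type*} [Group G] {n : ℕ} (g : Fin n → G)
    (a : Fin n → R) : MonoidAlgebra R G := ∑ i, MonoidAlgebra.single (g i) (a i)

lemma map_el {R S : Type*} [Ring R] [Ring S] {G : Type*} [Group G] {n : ℕ} (f : R →+* S)
    (g : Fin n → G) (a : Fin n → R) :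
    MonoidAlgebra.mapRingHom G f (el g a) = el g (fun i => f (a i)) := by
  unfold el
  rw [map_sum]
  simp only [MonoidAlgebra.mapRingHom_single]

lemma mapRingHom_injective {R S : Type*} [Ring R] [Ring S] {G : Type*} [Group G] (f : R →+* S)
    (hf : Function.Injective f) : Function.Injective (MonoidAlgebra.mapRingHom G f) := by
  intro a b hab
  ext x
  apply hf
  rw [← MonoidAlgebra.coeff_mapRingHom, ← MonoidAlgebra.coeff_mapRingHom, hab]

lemma mapMatrix_injective {R S : Type*} [Ring R] [Ring S] {m : ℕ} (f : R →+* S)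
    (hf : Function.Injective f) : Function.Injective (f.mapMatrix (m := Fin m)) := by
  intro a b hab
  ext i j
  apply hf
  exact congrFun (congrFun hab i) j

/-- a nonzero finitely generated `ℚ`-algebra has a ring homomorphism to `ℂ` -/
lemma exists_hom_complex (A : Type*) [CommRing A] [Algebra ℚ A] [Nontrivial A]
    [Algebra.FiniteType ℚ A] : Nonempty (A →+* ℂ) := by
  obtain ⟨M, hM⟩ := Ideal.exists_maximal A
  let _ : Field (A ⧸ M) := Ideal.Quotient.field M
  have h1 : Algebra.FiniteType ℚ (A ⧸ M) :=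
    Algebra.FiniteType.of_surjective (Ideal.Quotient.mkₐ ℚ M) (Ideal.Quotient.mkₐ_surjective ℚ M)
  have h2 : Module.Finite ℚ (A ⧸ M) := finite_of_finite_type_of_isJacobsonRing ℚ (A ⧸ M)
  have h3 : Algebra.IsAlgebraic ℚ (A ⧸ M) := Algebra.IsAlgebraic.of_finite ℚ (A ⧸ M)
  exact ⟨((IsAlgClosed.lift : (A ⧸ M) →ₐ[ℚ] ℂ).toRingHom).comp (Ideal.Quotient.mk M)⟩

theorem char_zero_el {L : Type*} [Field L] [CharZero L] {G : Type*} [Group G] {n m : ℕ}
    (g h : Fin n → G) (a b : Fin n → Matrix (Fin m) (Fin m) L) (hab : el g a * el h b = 1) :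
    el h b * el g a = 1 := by
  classical
  by_contra hne
  obtain ⟨x, k, l, hc⟩ : ∃ x k l, ((el h b * el g a - 1).coeff x) k l ≠ 0 := by
    by_contra hcon
    push Not at hcon
    apply hne
    rw [← sub_eq_zero]
    ext x k l
    exact hcon x k l
  set c := ((el h b * el g a - 1).coeff x) k l with hcdef
  set F : Finset L := (Finset.univ.image fun q : Fin n × Fin m × Fin m => a q.1 q.2.1 q.2.2) ∪
    (Finset.univ.image fun q : Fin n × Fin m × Fin m => b q.1 q.2.1 q.2.2) ∪ {c⁻¹} with hF
  set A₀ : Subalgebra ℚ L := Algebra.adjoin ℚ (F : Set L) with hA₀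
  have hsub : (F : Set L) ⊆ A₀ := Algebra.subset_adjoin
  have hfg : Algebra.FiniteType ℚ A₀ :=
    (Subalgebra.fg_iff_finiteType _).1 (Subalgebra.fg_adjoin_finset F)
  have ha : ∀ i k l, a i k l ∈ A₀ := fun i k l => hsub (by
    rw [hF]; simp only [Finset.coe_union, Finset.coe_image, Finset.coe_univ, Set.image_univ,
      Finset.coe_singleton, Set.mem_union]
    exact Or.inl (Or.inl ⟨(i, k, l), rfl⟩))
  have hb : ∀ i k l, b i k l ∈ A₀ := fun i k l => hsub (by
    rw [hF]; simp only [Finset.coe_union, Finset.coe_image, Finset.coe_univ, Set.image_univ,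
      Finset.coe_singleton, Set.mem_union]
    exact Or.inl (Or.inr ⟨(i, k, l), rfl⟩))
  have hcinv : c⁻¹ ∈ A₀ := hsub (by rw [hF]; simp)
  let a' : Fin n → Matrix (Fin m) (Fin m) A₀ := fun i => Matrix.of fun k l => ⟨a i k l, ha i k l⟩
  let b' : Fin n → Matrix (Fin m) (Fin m) A₀ := fun i => Matrix.of fun k l => ⟨b i k l, hb i k l⟩
  let ι : A₀ →+* L := A₀.val.toRingHom
  have hι : Function.Injective ι := Subtype.val_injective
  have hιa : (fun i => ι.mapMatrix (a' i)) = a := by
    funext i; ext k l; rfl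
  have hιb : (fun i => ι.mapMatrix (b' i)) = b := by
    funext i; ext k l; rfl
  have e1 : MonoidAlgebra.mapRingHom G (ι.mapMatrix) (el g a') = el g a := by rw [map_el, hιa]
  have e2 : MonoidAlgebra.mapRingHom G (ι.mapMatrix) (el h b') = el h b := by rw [map_el, hιb]
  have hab' : el g a' * el h b' = 1 := by
    apply mapRingHom_injective (G := G) _ (mapMatrix_injective (m := m) ι hι)
    rw [map_mul, e1, e2, hab, map_one]
  set c' : A₀ := ((el h b' * el g a' - 1).coeff x) k l with hc'
  have hcc : ι c' = c := by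
    rw [hcdef, ← e1, ← e2, ← map_mul, ← map_one (MonoidAlgebra.mapRingHom G (ι.mapMatrix)),
      ← map_sub, MonoidAlgebra.coeff_mapRingHom]
    rfl
  have hunit : c' * ⟨c⁻¹, hcinv⟩ = 1 := by
    apply hι
    rw [map_mul, hcc, map_one]
    exact mul_inv_cancel₀ hc
  obtain ⟨f⟩ := exists_hom_complex A₀
  have hfin : el h (fun i => f.mapMatrix (b' i)) * el g (fun i => f.mapMatrix (a' i)) = 1 := by
    apply DF_complex
    rw [← map_el, ← map_el, ← map_mul, hab', map_one]
  have hf0 : f c' = 0 := by
    have h1 : MonoidAlgebra.mapRingHom G (f.mapMatrix) (el h b' * el g a' - 1) = 0 := by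
      rw [map_sub, map_mul, map_el, map_el, hfin, map_one, sub_self]
    have h2 := congrArg (fun z => (z.coeff x) k l) h1
    simp only [MonoidAlgebra.coeff_mapRingHom] at h2
    exact h2
  have : f (c' * ⟨c⁻¹, hcinv⟩) = 1 := by rw [hunit, map_one]
  rw [map_mul, hf0, zero_mul] at this
  exact zero_ne_one this

end Vale.Agent.DirFin
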