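import Vale.Agent.DirFin.PGroup

/-! Direct finiteness passes to extensions by residually-`p` kernels in characteristic `p`. -/

namespace Vale.Agent.DirFin

/-- direct finiteness -/
def DF (A : Type*) [Ring A] : Prop := ∀ a b : A, a * b = 1 → b * a = 1

lemma DF.of_injective {A B : Type*} [Ring A] [Ring B] (f : A →+* B) (hf : Function.Injective f)
    (h : DF B) : DF A := by
  intro a b hab
  apply hf
  rw [map_mul, map_one]
  apply h
  rw [← map_mul, hab, map_one]

lemma DF.of_equiv {A B : Type*} [Ring A] [Ring B] (f : A ≃+* B) (h : DF B) : DF A :=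
  h.of_injective f.toRingHom f.injective

variable {R : Type*} [Ring R]

lemma DF.of_pgroup {Γ : Type*} [Group Γ] {p : ℕ} [Fact p.Prime] (hp : (p : R) = 0)
    (P : Subgroup Γ) [P.Normal] [Finite P] (hP : IsPGroup p P)
    (h : DF (MonoidAlgebra R (Γ ⧸ P))) : DF (MonoidAlgebra R Γ) := by
  intro a b hab
  set π := MonoidAlgebra.mapDomainRingHom R (QuotientGroup.mk' P) with hπ
  have h1 : π b * π a = 1 := h _ _ (by rw [← map_mul, hab, map_one])
  have h2 : (1 - b * a) * (1 - b * a) = 1 - b * a := by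
    have e1 : (1 - b * a) * (1 - b * a) = 1 - b * a - b * a + b * (a * b) * a := by noncomm_ring
    rw [e1, hab]; noncomm_ring
  have h3 : π (1 - b * a) = 0 := by rw [map_sub, map_one, map_mul, h1, sub_self]
  have h4 := idem_eq_zero (p := p) hp P hP (1 - b * a) h2 h3
  exact (sub_eq_zero.1 h4).symm

variable {G : Type*} [Group G]

/-- `N` is residually a finite `p`-group, through normal subgroups of the ambient group `G`. -/
def ResP (p : ℕ) (N : Subgroup G) : Prop :=
  ∀ x ∈ N, x ≠ 1 → ∃ M : Subgroup G, M.Normal ∧ M ≤ N ∧ M.relIndex N ≠ 0 ∧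
    (∀ y ∈ N, ∃ k : ℕ, y ^ p ^ k ∈ M) ∧ x ∉ M

lemma ResP.finset {p : ℕ} {N : Subgroup G} [hN : N.Normal] (h : ResP p N) (T : Finset G)
    (hT : ∀ x ∈ T, x ∈ N ∧ x ≠ 1) : ∃ M : Subgroup G, M.Normal ∧ M ≤ N ∧ M.relIndex N ≠ 0 ∧
    (∀ y ∈ N, ∃ k : ℕ, y ^ p ^ k ∈ M) ∧ ∀ x ∈ T, x ∉ M := by
  classical
  induction T using Finset.induction_on with
  | empty => exact ⟨N, hN, le_rfl, by simp, fun y hy => ⟨0, by simpa using hy⟩, by simp⟩
  | insert a T _ ih =>
    obtain ⟨M, hM1, hM2, hM3, hM4, hM5⟩ := ih fun x hx => hT x (Finset.mem_insert_of_mem hx)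
    obtain ⟨ha1, ha2⟩ := hT a (Finset.mem_insert_self _ _)
    obtain ⟨M', hM'1, hM'2, hM'3, hM'4, hM'5⟩ := h a ha1 ha2
    refine ⟨M ⊓ M', inferInstance, inf_le_left.trans hM2, Subgroup.relIndex_inf_ne_zero hM3 hM'3,
      ?_, ?_⟩
    · intro y hy
      obtain ⟨k, hk⟩ := hM4 y hy
      obtain ⟨l, hl⟩ := hM'4 y hy
      refine ⟨k + l, ?_, ?_⟩
      · rw [pow_add, pow_mul]
        exact M.pow_mem hk _
      · rw [pow_add, mul_comm, pow_mul]
        exact M'.pow_mem hl _
    · intro x hx hxM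
      rcases Finset.mem_insert.1 hx with rfl | hx
      · exact hM'5 hxM.2
      · exact hM5 x hx hxM.1

lemma finite_map_of_relIndex {N M : Subgroup G} [M.Normal] (h : M.relIndex N ≠ 0) :
    Finite (N.map (QuotientGroup.mk' M)) := by
  have hfin : Finite (N ⧸ M.subgroupOf N) := by
    rw [Subgroup.relIndex] at h
    exact @Subgroup.finite_quotient_of_finiteIndex _ _ _ ⟨h⟩
  let f : N ⧸ M.subgroupOf N → N.map (QuotientGroup.mk' M) :=
    Quotient.lift (fun x : N => ⟨QuotientGroup.mk' M x, x, x.2, rfl⟩) (by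
      intro x y hxy
      have h1 : x⁻¹ * y ∈ M.subgroupOf N := QuotientGroup.leftRel_apply.1 hxy
      rw [Subgroup.mem_subgroupOf] at h1
      refine Subtype.ext ?_
      show (QuotientGroup.mk (x : G) : G ⧸ M) = QuotientGroup.mk (y : G)
      rw [QuotientGroup.eq]
      simpa using h1)
  refine Finite.of_surjective f ?_
  rintro ⟨_, x, hx, rfl⟩
  exact ⟨QuotientGroup.mk ⟨x, hx⟩, rfl⟩

/-- **Extension theorem**. -/
theorem DF.of_resP {p : ℕ} [Fact p.Prime] (hp : (p : R) = 0) {N : Subgroup G} [N.Normal]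
    (hN : ResP p N) (h : DF (MonoidAlgebra R (G ⧸ N))) : DF (MonoidAlgebra R G) := by
  classical
  intro a b hab
  by_contra hne
  set δ := b * a - 1 with hδ
  have hδ0 : δ ≠ 0 := fun h0 => hne (sub_eq_zero.1 h0)
  set S := δ.coeff.support with hS
  set T : Finset G := ((S ×ˢ S).image fun q => q.1⁻¹ * q.2).filter fun x => x ∈ N ∧ x ≠ 1 with hT
  obtain ⟨M, hM1, hM2, hM3, hM4, hM5⟩ := hN.finset T (fun x hx => (Finset.mem_filter.1 hx).2)
  have hinj : Set.InjOn (QuotientGroup.mk' M) (S : Set G) := by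
    intro s hs t ht hst
    by_contra hst'
    have h1 : s⁻¹ * t ∈ M := by
      rw [← QuotientGroup.eq]; exact hst
    refine hM5 (s⁻¹ * t) ?_ h1
    rw [hT, Finset.mem_filter]
    refine ⟨Finset.mem_image.2 ⟨(s, t), Finset.mem_product.2 ⟨hs, ht⟩, rfl⟩, hM2 h1, ?_⟩
    intro h2
    exact hst' (inv_mul_eq_one.1 h2)
  -- the quotient by `M` is directly finite
  have hDF : DF (MonoidAlgebra R (G ⧸ M)) := by
    have hfin := finite_map_of_relIndex hM3
    refine DF.of_pgroup (p := p) hp (N.map (QuotientGroup.mk' M)) ?_ ?_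
    · rintro ⟨_, x, hx, rfl⟩
      obtain ⟨k, hk⟩ := hM4 x hx
      refine ⟨k, Subtype.ext ?_⟩
      show (QuotientGroup.mk' M x) ^ p ^ k = 1
      rw [← map_pow]
      exact (QuotientGroup.eq_one_iff _).2 hk
    · exact h.of_equiv (MonoidAlgebra.mapDomainRingEquiv R
        (QuotientGroup.quotientQuotientEquivQuotient M N hM2))
  set π := MonoidAlgebra.mapDomainRingHom R (QuotientGroup.mk' M) with hπ
  have h1 : π b * π a = 1 := hDF _ _ (by rw [← map_mul, hab, map_one])
  have h2 : π δ = 0 := by rw [hδ, map_sub, map_one, map_mul, h1, sub_self]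
  obtain ⟨g, hg⟩ : ∃ g, g ∈ S := by
    by_contra hcon
    push Not at hcon
    apply hδ0
    rw [← MonoidAlgebra.coeff_eq_zero, ← Finsupp.support_eq_empty]
    exact Finset.eq_empty_of_forall_notMem hcon
  have h3 : (π δ).coeff (QuotientGroup.mk' M g) = δ.coeff g :=
    Finsupp.mapDomain_apply' (S : Set G) δ.coeff (by rw [hS]) hinj hg
  rw [h2] at h3
  exact (Finsupp.mem_support_iff.1 hg) (by simpa using h3.symm)

/-- A finitely generated residually-`p` normal subgroup satisfies the condition. -/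
theorem resP_of_fg {p : ℕ} {N : Subgroup G} [hN : N.Normal] (hfg : N.FG)
    (hres : ∀ x : N, x ≠ 1 → ∃ (Q : Type) (_ : Group Q) (_ : Finite Q) (f : N →* Q),
      IsPGroup p Q ∧ f x ≠ 1) : ResP p N := by
  intro x hx hx1
  obtain ⟨Q, _, _, f, hQ, hf⟩ := hres ⟨x, hx⟩ (fun h => hx1 (congrArg Subtype.val h))
  -- finitely many homomorphisms to `Q`
  have hfinhom : Finite (N →* Q) := by
    obtain ⟨S, hS⟩ := (Group.fg_def.1 ((Group.fg_iff_subgroup_fg N).2 hfg))
    refine Finite.of_injective (fun (φ : N →* Q) (s : S) => φ s) ?_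
    intro φ ψ h
    refine MonoidHom.eq_of_eqOn_dense hS ?_
    intro s hs
    exact congrFun h ⟨s, hs⟩
  let Φ : N →* ((N →* Q) → Q) := MonoidHom.pi fun φ => φ
  have hΦ : ∀ y, y ∈ Φ.ker ↔ ∀ φ : N →* Q, φ y = 1 := by
    intro y
    rw [MonoidHom.mem_ker]
    exact ⟨fun h φ => congrFun h φ, fun h => funext h⟩
  refine ⟨Φ.ker.map N.subtype, ?_, ?_, ?_, ?_, ?_⟩
  · refine ⟨?_⟩
    rintro _ ⟨y, hy, rfl⟩ g
    have hy' := (hΦ y).1 hy
    refine ⟨⟨g * y * g⁻¹, hN.conj_mem _ y.2 g⟩, ?_, rfl⟩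
    rw [SetLike.mem_coe, hΦ]
    intro φ
    let c : N →* N := (MulAut.conjNormal g : MulAut N).toMonoidHom
    have := hy' (φ.comp c)
    rw [MonoidHom.comp_apply] at this
    convert this using 2
    exact Subtype.ext (MulAut.conjNormal_apply g y).symm
  · rintro _ ⟨y, _, rfl⟩
    exact y.2
  · rw [Subgroup.relIndex, Subgroup.subgroupOf, Subgroup.comap_map_eq_self_of_injective
      N.subtype_injective]
    rw [Subgroup.index_ker]
    exact Nat.card_pos.ne'
  · intro y hy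
    obtain ⟨k, hk⟩ := isPGroup_iff_card_dvd_pow.1 hQ
    refine ⟨k, ⟨⟨y, hy⟩ ^ p ^ k, ?_, rfl⟩⟩
    rw [SetLike.mem_coe, hΦ]
    intro φ
    rw [map_pow]
    exact orderOf_dvd_iff_pow_eq_one.1 ((orderOf_dvd_natCard _).trans hk)
  · rintro ⟨y, hy, hyx⟩
    have := (hΦ y).1 hy f
    apply hf
    convert this using 2
    exact Subtype.ext hyx.symm

end Vale.Agent.DirFin
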