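import Vale.Agent.DirFin.MatrixIso

/-! Kaplansky's theorem: `M_m(ℂ)[G]` is directly finite. -/

set_option linter.unusedSectionVars false

namespace Vale.Agent.DirFin

open scoped ComplexInnerProductSpace
open scoped InnerProductSpace

variable (G : Type*) [Group G] (m : ℕ)

/-- coefficient space -/
abbrev EE (m : ℕ) := EuclideanSpace ℂ (Fin m)

/-- Hilbert space -/
noncomputable abbrev HH (G : Type*) (m : ℕ) := lp (fun _ : G => EE m) 2

variable {G m}

lemma op_sum_le (σ : Equiv.Perm G) (T : EE m →L[ℂ] EE m) (f : HH G m) (s : Finset G) :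
    ∑ i ∈ s, ‖T (f (σ i))‖ ^ (2 : ENNReal).toReal ≤ (‖T‖ * ‖f‖) ^ (2 : ENNReal).toReal := by
  have h2 : (2 : ENNReal).toReal = 2 := by norm_num
  rw [h2]
  have h1 : ∑ i ∈ s, ‖T (f (σ i))‖ ^ (2 : ℝ) ≤ ∑ i ∈ s, ‖T‖ ^ (2 : ℝ) * ‖f (σ i)‖ ^ (2 : ℝ) := by
    refine Finset.sum_le_sum fun i _ => ?_
    rw [← Real.mul_rpow (norm_nonneg _) (norm_nonneg _)]
    exact Real.rpow_le_rpow (norm_nonneg _) (T.le_opNorm _) (by norm_num)
  refine h1.trans ?_
  rw [← Finset.mul_sum, Real.mul_rpow (norm_nonneg _) (norm_nonneg _)]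
  refine mul_le_mul_of_nonneg_left ?_ (by positivity)
  have h3 : ∑ i ∈ s, ‖f (σ i)‖ ^ (2 : ℝ) = ∑ j ∈ s.map σ.toEmbedding, ‖f j‖ ^ (2 : ℝ) := by
    rw [Finset.sum_map]; rfl
  rw [h3]
  have := lp.sum_rpow_le_norm_rpow (p := 2) (by norm_num) f (s.map σ.toEmbedding)
  rwa [h2] at this

/-- basic operator: translate by a permutation and apply `T` fibrewise -/
noncomputable def op (σ : Equiv.Perm G) (T : EE m →L[ℂ] EE m) : HH G m →L[ℂ] HH G m :=
  LinearMap.mkContinuous
    { toFun := fun f => ⟨fun x => T (f (σ x)), memℓp_gen' (op_sum_le σ T f)⟩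
      map_add' := fun f g => by
        ext x : 2
        show T ((f + g) (σ x)) = T (f (σ x)) + T (g (σ x))
        rw [lp.coeFn_add, ← map_add]; rfl
      map_smul' := fun c f => by
        ext x : 2
        show T ((c • f) (σ x)) = c • T (f (σ x))
        rw [lp.coeFn_smul, ← map_smul]; rfl }
    ‖T‖ (fun f => lp.norm_le_of_forall_sum_le (by norm_num) (by positivity) (op_sum_le σ T f))

lemma op_apply (σ : Equiv.Perm G) (T : EE m →L[ℂ] EE m) (f : HH G m) (x : G) :
    op σ T f x = T (f (σ x)) := rfl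

/-- fibrewise action -/
noncomputable def fibHom : (EE m →L[ℂ] EE m) →+* (HH G m →L[ℂ] HH G m) where
  toFun T := op 1 T
  map_one' := by ext f x : 3; rfl
  map_mul' S T := by ext f x : 3; rfl
  map_zero' := by ext f x : 3; rfl
  map_add' S T := by ext f x : 3; rfl

/-- left translations -/
noncomputable def leftHom : G →* (HH G m →L[ℂ] HH G m) where
  toFun g := op (Equiv.mulLeft g⁻¹) 1
  map_one' := by
    ext f x : 3
    rw [op_apply]
    simp
  map_mul' g h := by
    ext f x : 3
    show (op (Equiv.mulLeft (g * h)⁻¹) 1 f) x =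
      (op (Equiv.mulLeft g⁻¹) 1 (op (Equiv.mulLeft h⁻¹) 1 f)) x
    rw [op_apply, op_apply, op_apply]
    simp [mul_assoc]

/-- right translations -/
noncomputable def rt (h : G) : HH G m →L[ℂ] HH G m := op (Equiv.mulRight h) 1

lemma rt_apply (h : G) (f : HH G m) (x : G) : rt h f x = f (x * h) := rfl

/-- left regular representation -/
noncomputable def LL : MonoidAlgebra (Matrix (Fin m) (Fin m) ℂ) G →+* (HH G m →L[ℂ] HH G m) :=
  MonoidAlgebra.liftNCRingHom
    (fibHom.comp (Matrix.toEuclideanCLM (n := Fin m) (𝕜 := ℂ) : _ ≃⋆ₐ[ℂ] _).toRingEquiv.toRingHom)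
    leftHom (by
      intro U g
      ext f x : 3
      rfl)

lemma LL_single (g : G) (U : Matrix (Fin m) (Fin m) ℂ) :
    LL (MonoidAlgebra.single g U) =
      fibHom (G := G) (Matrix.toEuclideanCLM (n := Fin m) (𝕜 := ℂ) U) * leftHom g :=
  MonoidAlgebra.liftNCRingHom_single _ _ _ _ _

lemma LL_single_apply (g : G) (U : Matrix (Fin m) (Fin m) ℂ) (f : HH G m) (x : G) :
    LL (MonoidAlgebra.single g U) f x = Matrix.toEuclideanCLM (n := Fin m) (𝕜 := ℂ) U (f (g⁻¹ * x)) := by
  rw [LL_single]
  rfl

lemma LL_comm_rt (a : MonoidAlgebra (Matrix (Fin m) (Fin m) ℂ) G) (h : G) (f : HH G m) :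
    LL a (rt h f) = rt h (LL a f) := by
  induction a using MonoidAlgebra.induction_linear with
  | zero => simp
  | add a b ha hb =>
    rw [map_add, add_apply, ha, hb, add_apply, map_add]
  | single g U =>
    ext x : 2
    rw [LL_single_apply, rt_apply, rt_apply, LL_single_apply, mul_assoc]

variable [DecidableEq G]

lemma rt_single (h : G) (v : EE m) :
    rt h (lp.single 2 1 v : HH G m) = lp.single 2 h⁻¹ v := by
  ext x : 2
  rw [rt_apply]
  by_cases hx : x = h⁻¹
  · subst hx
    rw [inv_mul_cancel, lp.single_apply_self, lp.single_apply_self]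
  · rw [lp.single_apply_ne _ _ _ hx, lp.single_apply_ne]
    intro h1
    exact hx (eq_inv_of_mul_eq_one_left h1)

lemma LL_single_single (g : G) (U : Matrix (Fin m) (Fin m) ℂ) (v : EE m) :
    LL (MonoidAlgebra.single g U) (lp.single 2 1 v : HH G m) =
      lp.single 2 g (Matrix.toEuclideanCLM (n := Fin m) (𝕜 := ℂ) U v) := by
  ext x : 2
  rw [LL_single_apply]
  by_cases hx : x = g
  · subst hx
    rw [inv_mul_cancel, lp.single_apply_self, lp.single_apply_self]
  · rw [lp.single_apply_ne _ _ _ hx, lp.single_apply_ne, map_zero]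
    intro h1
    exact hx (inv_mul_eq_one.1 h1).symm

/-- value at `g` of the image of the basic vector -/
lemma LL_apply_single (a : MonoidAlgebra (Matrix (Fin m) (Fin m) ℂ) G) (v : EE m) (g : G) :
    LL a (lp.single 2 1 v : HH G m) g =
      Matrix.toEuclideanCLM (n := Fin m) (𝕜 := ℂ) (a.coeff g) v := by
  induction a using MonoidAlgebra.induction_linear with
  | zero => simp
  | add a b ha hb =>
    rw [map_add, add_apply, lp.coeFn_add, Pi.add_apply, ha, hb,
      MonoidAlgebra.coeff_add, Finsupp.add_apply, map_add, add_apply]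
  | single h U =>
    rw [LL_single_single, MonoidAlgebra.coeff_single]
    by_cases hx : g = h
    · subst hx
      rw [lp.single_apply_self, Finsupp.single_eq_same]
    · rw [lp.single_apply_ne _ _ _ hx, Finsupp.single_eq_of_ne hx, map_zero]
      rfl

/-- basis vector -/
noncomputable def bv (i : Fin m) : EE m := EuclideanSpace.single i 1

/-- trace of an operator -/
noncomputable def ttr (T : HH G m →L[ℂ] HH G m) : ℂ :=
  ∑ i, (T (lp.single 2 1 (bv i))) 1 i

lemma ttr_comm (T : HH G m →L[ℂ] HH G m) (hT : ∀ h f, T (rt h f) = rt h (T f))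
    (a : MonoidAlgebra (Matrix (Fin m) (Fin m) ℂ) G) :
    ttr (T.comp (LL a)) = ttr ((LL a).comp T) := by
  induction a using MonoidAlgebra.induction_linear with
  | zero => simp [ttr]
  | add a b ha hb =>
    have e1 : ∀ S S' : HH G m →L[ℂ] HH G m, ttr (S + S') = ttr S + ttr S' := by
      intro S S'
      unfold ttr
      rw [← Finset.sum_add_distrib]
      rfl
    rw [map_add, ContinuousLinearMap.comp_add, ContinuousLinearMap.add_comp, e1, e1, ha, hb]
  | single g U =>
    -- the block of `T`
    let B : EE m →ₗ[ℂ] EE m :=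
      { toFun := fun w => T (lp.single 2 1 w) g⁻¹
        map_add' := fun v w => by rw [lp.single_add, map_add]; rfl
        map_smul' := fun c v => by rw [lp.single_smul, map_smul]; rfl }
    have hB : ∀ w, B w = T (lp.single 2 1 w) g⁻¹ := fun _ => rfl
    have h1 : ∀ i, ((T.comp (LL (MonoidAlgebra.single g U))) (lp.single 2 1 (bv i))) 1 i =
        B (Matrix.toEuclideanCLM (n := Fin m) (𝕜 := ℂ) U (bv i)) i := by
      intro i
      rw [ContinuousLinearMap.comp_apply, LL_single_single, hB]
      have : (lp.single 2 g (Matrix.toEuclideanCLM (n := Fin m) (𝕜 := ℂ) U (bv i)) : HH G m) =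
          rt g⁻¹ (lp.single 2 1 (Matrix.toEuclideanCLM (n := Fin m) (𝕜 := ℂ) U (bv i))) := by
        rw [rt_single, inv_inv]
      rw [this, hT, rt_apply, one_mul]
    have h2 : ∀ i, (((LL (MonoidAlgebra.single g U)).comp T) (lp.single 2 1 (bv i))) 1 i =
        (Matrix.toEuclideanCLM (n := Fin m) (𝕜 := ℂ) U (B (bv i))) i := by
      intro i
      rw [ContinuousLinearMap.comp_apply, LL_single_apply, hB, mul_one]
    unfold ttr
    simp only [h1, h2]
    have h3 : ∀ i, Matrix.toEuclideanCLM (n := Fin m) (𝕜 := ℂ) U (bv i) = ∑ j, U j i • bv j := by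
      intro i
      ext k
      rw [Matrix.ofLp_toEuclideanCLM]
      simp [bv, Pi.single_apply]
    have h4 : ∀ w i, (Matrix.toEuclideanCLM (n := Fin m) (𝕜 := ℂ) U w) i = ∑ j, U i j * w j := by
      intro w i
      rw [Matrix.ofLp_toEuclideanCLM]
      rfl
    simp only [h3, h4, map_sum, map_smul]
    have h5 : ∀ i, (∑ j, U j i • B (bv j)) i = ∑ j, U j i * B (bv j) i := by
      intro i
      simp
    simp only [h5]
    exact Finset.sum_comm

lemma ttr_LL (a : MonoidAlgebra (Matrix (Fin m) (Fin m) ℂ) G) :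
    ttr (LL a) = Matrix.trace (a.coeff 1) := by
  unfold ttr Matrix.trace
  refine Finset.sum_congr rfl fun i _ => ?_
  rw [LL_apply_single, Matrix.ofLp_toEuclideanCLM]
  simp [bv]

lemma trace_coeff_mul (a b : MonoidAlgebra (Matrix (Fin m) (Fin m) ℂ) G) :
    Matrix.trace ((a * b).coeff 1) = Matrix.trace ((b * a).coeff 1) := by
  induction a using MonoidAlgebra.induction_linear with
  | zero => simp
  | add a a' ha ha' =>
    rw [add_mul, mul_add, MonoidAlgebra.coeff_add, MonoidAlgebra.coeff_add, Finsupp.add_apply,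
      Finsupp.add_apply, Matrix.trace_add, Matrix.trace_add, ha, ha']
  | single g u =>
    induction b using MonoidAlgebra.induction_linear with
    | zero => simp
    | add b b' hb hb' =>
      rw [add_mul, mul_add, MonoidAlgebra.coeff_add, MonoidAlgebra.coeff_add, Finsupp.add_apply,
        Finsupp.add_apply, Matrix.trace_add, Matrix.trace_add, hb, hb']
    | single h v =>
      rw [MonoidAlgebra.single_mul_single, MonoidAlgebra.single_mul_single,
        MonoidAlgebra.coeff_single, MonoidAlgebra.coeff_single, Finsupp.single_apply,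
        Finsupp.single_apply]
      have : g * h = 1 ↔ h * g = 1 := by
        rw [mul_eq_one_iff_eq_inv, mul_eq_one_iff_inv_eq]
        exact eq_comm
      by_cases h1 : g * h = 1
      · rw [if_pos h1, if_pos (this.1 h1), Matrix.trace_mul_comm]
      · rw [if_neg h1, if_neg (fun h2 => h1 (this.2 h2))]

set_option maxHeartbeats 1000000 in
/-- an idempotent with vanishing trace is zero -/
theorem idem_eq_zero_of_trace (ν : MonoidAlgebra (Matrix (Fin m) (Fin m) ℂ) G) (hν : ν * ν = ν)
    (htr : Matrix.trace (ν.coeff 1) = 0) : ν = 0 := by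
  set N : HH G m →L[ℂ] HH G m := LL ν with hN
  have hNN : ∀ f, N (N f) = N f := by
    intro f
    have : (LL ν * LL ν) f = LL ν f := by rw [← map_mul, hν]
    exact this
  set K : Submodule ℂ (HH G m) := LinearMap.ker (1 - N : HH G m →L[ℂ] HH G m).toLinearMap with hK
  have hKmem : ∀ f, f ∈ K ↔ N f = f := by
    intro f
    rw [hK, LinearMap.mem_ker]
    show f - N f = 0 ↔ _
    rw [sub_eq_zero, eq_comm]
  have hKclosed : IsClosed (K : Set (HH G m)) :=
    ContinuousLinearMap.isClosed_ker (1 - N : HH G m →L[ℂ] HH G m)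
  have hcomplete : CompleteSpace K := hKclosed.completeSpace_coe
  set P : HH G m →L[ℂ] HH G m := K.starProjection with hP
  have hPmem : ∀ f, P f ∈ K := fun f => Submodule.starProjection_apply_mem K f
  have hPN : ∀ f, P (N f) = N f := fun f =>
    Submodule.starProjection_eq_self_iff.2 ((hKmem _).2 (hNN f))
  have hNP : ∀ f, N (P f) = P f := fun f => (hKmem _).1 (hPmem f)
  -- right translations preserve `K` and its orthogonal complement
  have hrt_inner : ∀ (h : G) (f g : HH G m), ⟪rt h f, rt h g⟫_ℂ = ⟪f, g⟫_ℂ := by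
    intro h f g
    rw [lp.inner_eq_tsum, lp.inner_eq_tsum]
    exact (Equiv.mulRight h).tsum_eq (fun x => ⟪f x, g x⟫_ℂ)
  have hrtK : ∀ (h : G) f, f ∈ K → rt h f ∈ K := by
    intro h f hf
    rw [hKmem] at hf ⊢
    rw [hN, LL_comm_rt, ← hN, hf]
  have hrt_inv : ∀ (h : G) (f : HH G m), rt h (rt h⁻¹ f) = f := by
    intro h f
    ext x : 2
    rw [rt_apply, rt_apply, mul_assoc, mul_inv_cancel, mul_one]
  have hPrt : ∀ h f, P (rt h f) = rt h (P f) := by
    intro h f
    refine Submodule.eq_starProjection_of_mem_of_inner_eq_zero (hrtK h _ (hPmem f)) ?_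
    intro w hw
    have h1 : w = rt h (rt h⁻¹ w) := (hrt_inv h w).symm
    rw [h1, ← map_sub, hrt_inner]
    exact Submodule.starProjection_inner_eq_zero f _ (hrtK _ _ hw)
  -- trace computation
  have ht1 : ttr P = 0 := by
    have e1 : P = (LL ν).comp P := by
      ext f : 1
      exact (hNP f).symm
    have e2 : P.comp (LL ν) = LL ν := by
      ext f : 1
      exact hPN f
    rw [e1, ← ttr_comm P hPrt, e2, ttr_LL, htr]
  -- hence `P` kills the basic vectors
  have hsq : ∀ i, (P (lp.single 2 1 (bv i))) 1 i = (‖P (lp.single 2 1 (bv i))‖ ^ 2 : ℝ) := by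
    intro i
    set e : HH G m := lp.single 2 1 (bv i) with he
    have h1 : ⟪e, P e⟫_ℂ = (P e) 1 i := by
      rw [he, lp.inner_single_left, bv, EuclideanSpace.inner_single_left]
      simp
    have h2 : ⟪P e, P e⟫_ℂ = ⟪e, P e⟫_ℂ := by
      have h3 := Submodule.starProjection_inner_eq_zero (K := K) e (P e) (hPmem e)
      rw [inner_sub_left, sub_eq_zero] at h3
      exact h3.symm
    rw [← h1, ← h2, inner_self_eq_norm_sq_to_K]
    push_cast
    rfl
  have hzero : ∀ i, P (lp.single 2 1 (bv i)) = 0 := by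
    have h1 : ∑ i, ‖P (lp.single 2 1 (bv i) : HH G m)‖ ^ 2 = 0 := by
      unfold ttr at ht1
      simp only [hsq] at ht1
      exact_mod_cast ht1
    intro i
    have h2 := (Finset.sum_eq_zero_iff_of_nonneg (fun _ _ => by positivity)).1 h1 i
      (Finset.mem_univ i)
    have h3 : ‖P (lp.single 2 1 (bv i) : HH G m)‖ = 0 := by
      exact pow_eq_zero_iff (two_ne_zero) |>.1 h2
    exact norm_eq_zero.1 h3
  have hzero' : ∀ v : EE m, P (lp.single 2 1 v) = 0 := by
    intro v
    have hv : v = ∑ i, v i • bv i := by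
      ext k
      simp [bv, Pi.single_apply]
    let S : EE m →ₗ[ℂ] HH G m :=
      { toFun := fun w => P (lp.single 2 1 w)
        map_add' := fun v w => by rw [lp.single_add, map_add]
        map_smul' := fun c v => by rw [lp.single_smul, map_smul]; rfl }
    show S v = 0
    rw [hv, map_sum]
    refine Finset.sum_eq_zero fun i _ => ?_
    rw [map_smul]
    show v i • P (lp.single 2 1 (bv i)) = 0
    rw [hzero, smul_zero]
  have hPL : ∀ (a : MonoidAlgebra (Matrix (Fin m) (Fin m) ℂ) G) (v : EE m),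
      P (LL a (lp.single 2 1 v)) = 0 := by
    intro a v
    induction a using MonoidAlgebra.induction_linear with
    | zero => simp
    | add a b ha hb => rw [map_add, add_apply, map_add, ha, hb, add_zero]
    | single g U =>
      rw [LL_single_single]
      have : (lp.single 2 g (Matrix.toEuclideanCLM (n := Fin m) (𝕜 := ℂ) U v) : HH G m) =
          rt g⁻¹ (lp.single 2 1 (Matrix.toEuclideanCLM (n := Fin m) (𝕜 := ℂ) U v)) := by
        rw [rt_single, inv_inv]
      rw [this, hPrt, hzero', map_zero]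
  have hfin : ∀ v : EE m, LL ν (lp.single 2 1 v) = 0 := by
    intro v
    have := hPN (lp.single 2 1 v)
    rw [hN] at this
    rw [← this]
    exact hPL ν v
  ext g : 2
  have h1 : Matrix.toEuclideanCLM (n := Fin m) (𝕜 := ℂ) (ν.coeff g) = 0 := by
    ext v : 1
    rw [← LL_apply_single, hfin]
    rfl
  simpa using h1

lemma idem_compl {A : Type*} [Ring A] {a b : A} (hab : a * b = 1) :
    (1 - b * a) * (1 - b * a) = 1 - b * a := by
  have e1 : (1 - b * a) * (1 - b * a) = 1 - b * a - b * a + b * (a * b) * a := by noncomm_ring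
  rw [e1, hab]; noncomm_ring

/-- **Kaplansky's theorem** over `ℂ` -/
theorem DF_complex : DF (MonoidAlgebra (Matrix (Fin m) (Fin m) ℂ) G) := by
  intro a b hab
  have h2 := idem_compl hab
  have h3 : Matrix.trace ((1 - b * a).coeff 1) = 0 := by
    rw [MonoidAlgebra.coeff_sub, Finsupp.sub_apply, Matrix.trace_sub, ← trace_coeff_mul a b, hab,
      sub_self]
  exact (sub_eq_zero.1 (idem_eq_zero_of_trace _ h2 h3)).symm

end Vale.Agent.DirFin
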