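import Vale.Agent.DirFin.Extension

/-! `M_n(K)[G] ≃ M_n(K[G])`. -/

namespace Vale.Agent.DirFin

variable {K : Type*} [Ring K] {G : Type*} [Group G] {n : ℕ}

/-- the natural map -/
noncomputable def toMat (K : Type*) [Ring K] (G : Type*) [Group G] (n : ℕ) :
    MonoidAlgebra (Matrix (Fin n) (Fin n) K) G →+* Matrix (Fin n) (Fin n) (MonoidAlgebra K G) :=
  MonoidAlgebra.liftNCRingHom
    ((MonoidAlgebra.singleOneRingHom : K →+* MonoidAlgebra K G).mapMatrix)
    ((Matrix.scalar (Fin n) : MonoidAlgebra K G →+* _).toMonoidHom.comp (MonoidAlgebra.of K G))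
    (by
      intro U g
      show (Matrix.map U _) * (Matrix.scalar (Fin n) (MonoidAlgebra.single g (1 : K))) =
        (Matrix.scalar (Fin n) (MonoidAlgebra.single g (1 : K))) * (Matrix.map U _)
      ext i j : 1
      rw [Matrix.scalar_apply, Matrix.mul_diagonal, Matrix.diagonal_mul, Matrix.map_apply]
      show MonoidAlgebra.single 1 (U i j) * MonoidAlgebra.single g 1 =
        MonoidAlgebra.single g 1 * MonoidAlgebra.single 1 (U i j)
      rw [MonoidAlgebra.single_mul_single, MonoidAlgebra.single_mul_single]
      simp)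

lemma toMat_single (g : G) (U : Matrix (Fin n) (Fin n) K) (i j : Fin n) :
    toMat K G n (MonoidAlgebra.single g U) i j = MonoidAlgebra.single g (U i j) := by
  unfold toMat
  rw [MonoidAlgebra.liftNCRingHom_single]
  show (Matrix.map U (MonoidAlgebra.singleOneRingHom : K →+* MonoidAlgebra K G) *
    (Matrix.scalar (Fin n) (MonoidAlgebra.single g (1 : K)))) i j = _
  rw [Matrix.scalar_apply, Matrix.mul_diagonal, Matrix.map_apply]
  show MonoidAlgebra.single 1 (U i j) * MonoidAlgebra.single g 1 = _
  rw [MonoidAlgebra.single_mul_single]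
  simp

lemma coeff_toMat (a : MonoidAlgebra (Matrix (Fin n) (Fin n) K) G) (i j : Fin n) (g : G) :
    (toMat K G n a i j).coeff g = a.coeff g i j := by
  classical
  induction a using MonoidAlgebra.induction_linear with
  | zero => simp
  | add a b ha hb =>
    rw [map_add, Matrix.add_apply, MonoidAlgebra.coeff_add, Finsupp.add_apply, ha, hb,
      MonoidAlgebra.coeff_add, Finsupp.add_apply, Matrix.add_apply]
  | single h U =>
    rw [toMat_single, MonoidAlgebra.coeff_single, MonoidAlgebra.coeff_single]
    rw [Finsupp.single_apply, Finsupp.single_apply]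
    split_ifs <;> simp

lemma toMat_injective : Function.Injective (toMat K G n) := by
  intro a b h
  ext g i j
  rw [← coeff_toMat, ← coeff_toMat, h]

lemma toMat_surjective : Function.Surjective (toMat K G n) := by
  classical
  intro A
  refine ⟨MonoidAlgebra.ofCoeff (Finsupp.onFinset
    (Finset.univ.biUnion fun i => Finset.univ.biUnion fun j => (A i j).coeff.support)
    (fun g => Matrix.of fun i j => (A i j).coeff g) ?_), ?_⟩
  · intro g hg
    by_contra hcon
    apply hg
    ext i j
    simp only [Finset.mem_biUnion, Finset.mem_univ, true_and, not_exists,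
      Finsupp.mem_support_iff, not_not] at hcon
    simpa using hcon i j
  · ext i j g
    rw [coeff_toMat]
    rfl

/-- the isomorphism -/
noncomputable def matIso (K : Type*) [Ring K] (G : Type*) [Group G] (n : ℕ) :
    MonoidAlgebra (Matrix (Fin n) (Fin n) K) G ≃+* Matrix (Fin n) (Fin n) (MonoidAlgebra K G) :=
  RingEquiv.ofBijective (toMat K G n) ⟨toMat_injective, toMat_surjective⟩

lemma natCast_matrix_eq_zero {p : ℕ} (hp : (p : K) = 0) :
    (p : Matrix (Fin n) (Fin n) K) = 0 := by
  ext i j
  rw [← Matrix.diagonal_natCast, hp]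
  simp

/-- stable version of the extension theorem -/
theorem DF.matrix_of_resP {p : ℕ} [Fact p.Prime] (hp : (p : K) = 0) {N : Subgroup G} [N.Normal]
    (hN : ResP p N) (h : DF (Matrix (Fin n) (Fin n) (MonoidAlgebra K (G ⧸ N)))) :
    DF (Matrix (Fin n) (Fin n) (MonoidAlgebra K G)) :=
  DF.of_equiv (matIso K G n).symm
    (DF.of_resP (natCast_matrix_eq_zero hp) hN (DF.of_equiv (matIso K (G ⧸ N) n) h))

end Vale.Agent.DirFin
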