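import Mathlib

/-! Idempotents in the kernel of `R[Γ] → R[Γ/P]`, `P` a finite normal `p`-subgroup, `p = 0` in `R`. -/

namespace Vale.Agent.DirFin

open MulAction

/-- A finite `p`-group acting linearly on an `𝔽_p`-space preserving a nonzero subspace has a nonzero
fixed vector in it. -/
lemma exists_fixed {p : ℕ} [Fact p.Prime] {V : Type*} [AddCommGroup V] [Module (ZMod p) V]
    {P : Type*} [Group P] [Finite P] (hP : IsPGroup p P) (ρ : P →* Module.End (ZMod p) V)
    (W : Submodule (ZMod p) V) (hW : ∀ x, ∀ w ∈ W, ρ x w ∈ W) {w₀ : V} (hw₀ : w₀ ∈ W)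
    (h0 : w₀ ≠ 0) : ∃ w ∈ W, w ≠ 0 ∧ ∀ x, ρ x w = w := by
  set S : Submodule (ZMod p) V := Submodule.span (ZMod p) (Set.range fun x => ρ x w₀) with hS
  have hSW : S ≤ W := Submodule.span_le.2 (by rintro _ ⟨x, rfl⟩; exact hW x _ hw₀)
  have hstab : ∀ x, ∀ s ∈ S, ρ x s ∈ S := by
    intro x s hs
    have : S ≤ S.comap (ρ x) := by
      refine Submodule.span_le.2 ?_
      rintro _ ⟨y, rfl⟩
      refine Submodule.subset_span ⟨x * y, ?_⟩
      simp
    exact this hs
  have hfin : Module.Finite (ZMod p) S := Module.Finite.span_of_finite _ (Set.finite_range _)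
  have hfin' : Finite S := Module.finite_of_finite (ZMod p)
  have hw₀S : w₀ ∈ S := Submodule.subset_span ⟨1, by simp⟩
  let act : MulAction P S :=
    { smul := fun x s => ⟨ρ x s, hstab x s s.2⟩
      one_smul := fun s => Subtype.ext (by show ρ 1 (s : V) = s; simp)
      mul_smul := fun x y s => Subtype.ext (by
        show ρ (x * y) (s : V) = ρ x (ρ y (s : V)); simp) }
  have hsmul : ∀ (x : P) (s : S), ((x • s : S) : V) = ρ x s := fun _ _ => rfl
  have hdvd : p ∣ Nat.card S := by
    have h1 : addOrderOf (⟨w₀, hw₀S⟩ : S) = p := by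
      refine addOrderOf_eq_prime ?_ ?_
      · rw [← Nat.cast_smul_eq_nsmul (ZMod p)]; simp
      · intro h; exact h0 (congrArg Subtype.val h)
    have h2 := addOrderOf_dvd_natCard (⟨w₀, hw₀S⟩ : S)
    rwa [h1] at h2
  have h0fix : (0 : S) ∈ fixedPoints P S := by
    intro x
    exact Subtype.ext (by rw [hsmul]; simp)
  obtain ⟨b, hb, hb0⟩ := hP.exists_fixed_point_of_prime_dvd_card_of_fixed_point S hdvd h0fix
  refine ⟨b, hSW b.2, fun h => hb0 (Subtype.ext h.symm), fun x => ?_⟩
  have := congrArg Subtype.val (hb x)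
  rwa [hsmul] at this

variable {R : Type*} [Ring R] {Γ : Type*} [Group Γ]

lemma map_mapDomain_zero (P : Subgroup Γ) [P.Normal] {B : Type*} [AddCommGroup B]
    (F : MonoidAlgebra R Γ →+ B)
    (hF : ∀ x ∈ P, ∀ u, F (MonoidAlgebra.single x 1 * u) = F u) (v : MonoidAlgebra R Γ)
    (hv : MonoidAlgebra.mapDomain (QuotientGroup.mk' P) v = 0) : F v = 0 := by
  -- factor `F` through the quotient
  let Ψ : (Γ ⧸ P →₀ R) →+ B := Finsupp.liftAddHom fun c =>
    { toFun := fun r => F (MonoidAlgebra.single c.out r)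
      map_zero' := by simp
      map_add' := fun r s => by rw [MonoidAlgebra.single_add, map_add] }
  have hsingle : ∀ (g : Γ) (r : R), F (MonoidAlgebra.single g r) =
      Ψ (Finsupp.single (QuotientGroup.mk' P g) r) := by
    intro g r
    rw [Finsupp.liftAddHom_apply_single]
    show F (MonoidAlgebra.single g r) =
      F (MonoidAlgebra.single (QuotientGroup.mk' P g : Γ ⧸ P).out r)
    set g' := (QuotientGroup.mk' P g : Γ ⧸ P).out with hg'
    have h1 : (QuotientGroup.mk' P g') = QuotientGroup.mk' P g := by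
      rw [hg']; exact QuotientGroup.out_eq' _
    have h2 : g' * g⁻¹ ∈ P := by
      have : QuotientGroup.mk' P (g' * g⁻¹) = 1 := by
        rw [map_mul, map_inv, h1, mul_inv_cancel]
      rwa [← QuotientGroup.eq_one_iff]
    rw [← hF _ h2 (MonoidAlgebra.single g r), MonoidAlgebra.single_mul_single]
    simp
  have hfac : ∀ u : MonoidAlgebra R Γ,
      F u = Ψ (MonoidAlgebra.mapDomain (QuotientGroup.mk' P) u).coeff := by
    intro u
    induction u using MonoidAlgebra.induction_linear with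
    | zero => simp
    | add a b ha hb =>
      rw [map_add, ha, hb, MonoidAlgebra.mapDomain_add, MonoidAlgebra.coeff_add, map_add]
    | single g r =>
      rw [MonoidAlgebra.mapDomain_single, MonoidAlgebra.coeff_single, hsingle]
  rw [hfac, hv]
  simp

/-- abstract version of the key lemma -/
theorem idem_eq_zero_aux {A : Type*} [Ring A] {p : ℕ} [Fact p.Prime] (hp : (p : A) = 0)
    {P : Type*} [Group P] [Finite P] (hP : IsPGroup p P) (ι : P →* A) (ν : A) (hν : ν * ν = ν)
    (h : ∀ F : A →+ ZMod p, (∀ x u, F (ι x * u) = F u) → ∀ u, F (u * ν) = 0) : ν = 0 := by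
  by_contra hne
  have hchar : ∀ v : A, p • v = 0 := by
    intro v
    rw [nsmul_eq_mul, hp, zero_mul]
  obtain ⟨_inst⟩ : Nonempty (Module (ZMod p) A) := ⟨AddCommGroup.zmodModule hchar⟩
  obtain ⟨F₀, hF₀⟩ : ∃ F : Module.Dual (ZMod p) A, F ν ≠ 0 := by
    by_contra hcon
    push Not at hcon
    exact hne ((Module.forall_dual_apply_eq_zero_iff (ZMod p) ν).1 hcon)
  let Rm : A →ₗ[ZMod p] A := (AddMonoidHom.mulRight ν).toZModLinearMap p
  have hRm : ∀ u, Rm u = u * ν := fun _ => rfl
  let Lm : A → (A →ₗ[ZMod p] A) := fun x => (AddMonoidHom.mulLeft x).toZModLinearMap p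
  have hLm : ∀ x u, Lm x u = x * u := fun _ _ => rfl
  let ρ : P →* Module.End (ZMod p) (Module.Dual (ZMod p) A) :=
    { toFun := fun x => (Lm (ι x⁻¹)).dualMap
      map_one' := by
        ext F u
        show F (Lm (ι (1 : P)⁻¹) u) = F u
        rw [hLm]
        simp
      map_mul' := fun x y => by
        ext F u
        show F (Lm (ι (x * y)⁻¹) u) = F (Lm (ι y⁻¹) (Lm (ι x⁻¹) u))
        rw [hLm, hLm, hLm, ← mul_assoc, ← map_mul]
        simp }
  have hρ : ∀ x F u, ρ x F u = F (ι x⁻¹ * u) := fun _ _ _ => rfl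
  let W : Submodule (ZMod p) (Module.Dual (ZMod p) A) :=
    { carrier := {F | ∀ u, F (u * ν) = F u}
      add_mem' := fun {a b} ha hb u => by
        rw [LinearMap.add_apply, LinearMap.add_apply, ha u, hb u]
      zero_mem' := fun u => rfl
      smul_mem' := fun c F hF u => by
        rw [LinearMap.smul_apply, LinearMap.smul_apply, hF u] }
  have hWmem : ∀ F, F ∈ W ↔ ∀ u, F (u * ν) = F u := fun _ => Iff.rfl
  obtain ⟨F, hFW, hF0, hFfix⟩ := exists_fixed hP ρ W
    (by
      intro x F hF
      rw [hWmem] at hF ⊢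
      intro u
      rw [hρ, hρ, ← mul_assoc, hF])
    (w₀ := F₀.comp Rm)
    (by
      rw [hWmem]
      intro u
      show F₀ (u * ν * ν) = F₀ (u * ν)
      rw [mul_assoc, hν])
    (by
      intro h
      have h1 : F₀ (ν * ν) = 0 := LinearMap.congr_fun h ν
      rw [hν] at h1
      exact hF₀ h1)
  apply hF0
  ext u
  have h1 : F u = F (u * ν) := ((hWmem F).1 hFW u).symm
  have h2 : F (u * ν) = 0 := by
    refine h F.toAddMonoidHom ?_ u
    intro x w
    have h3 := LinearMap.congr_fun (hFfix x⁻¹) w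
    rw [hρ, inv_inv] at h3
    exact h3
  rw [h1, h2]
  rfl

/-- key lemma -/
theorem idem_eq_zero {p : ℕ} [Fact p.Prime] (hp : (p : R) = 0) (P : Subgroup Γ) [P.Normal]
    [Finite P] (hP : IsPGroup p P) (ν : MonoidAlgebra R Γ) (hν : ν * ν = ν)
    (hker : MonoidAlgebra.mapDomain (QuotientGroup.mk' P) ν = 0) : ν = 0 := by
  refine idem_eq_zero_aux (p := p) ?_ hP ((MonoidAlgebra.of R Γ).comp P.subtype) ν hν ?_
  · rw [MonoidAlgebra.natCast_def, hp, MonoidAlgebra.single_zero]
  · intro F hF u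
    refine map_mapDomain_zero P F ?_ (u * ν) ?_
    · intro x hx w
      exact hF ⟨x, hx⟩ w
    · have : MonoidAlgebra.mapDomain (QuotientGroup.mk' P) (u * ν) =
          MonoidAlgebra.mapDomain (QuotientGroup.mk' P) u *
            MonoidAlgebra.mapDomain (QuotientGroup.mk' P) ν := MonoidAlgebra.mapDomain_mul _ _ _
      rw [this, hker, mul_zero]

end Vale.Agent.DirFin
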