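import Vale.Agent.DirFin.Uniform
import Mathlib.GroupTheory.ResiduallyFinite

/-! Residually finite quotients, and conversion to standard classes. -/

universe u v

namespace Vale.Agent.DirFin

lemma DF.of_finiteDimensional {K A : Type*} [Field K] [Ring A] [Algebra K A]
    [FiniteDimensional K A] : DF A := by
  intro a b hab
  have hinj : Function.Injective (LinearMap.mulLeft K b) := by
    intro x y hxy
    have h1 : b * x = b * y := hxy
    have h2 := congrArg (fun z => a * z) h1
    simpa only [← mul_assoc, hab, one_mul] using h2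
  obtain ⟨c, hc⟩ := (LinearMap.injective_iff_surjective.1 hinj) 1
  have hc' : b * c = 1 := hc
  have : a = c := by
    calc a = a * (b * c) := by rw [hc', mul_one]
      _ = c := by rw [← mul_assoc, hab, one_mul]
  rw [this, hc']

theorem DF.of_separation {R : Type*} [Ring R] {G : Type*} [Group G]
    (h : ∀ T : Finset G, (∀ x ∈ T, x ≠ 1) → ∃ (M : Subgroup G) (_ : M.Normal),
      (∀ x ∈ T, x ∉ M) ∧ DF (MonoidAlgebra R (G ⧸ M))) : DF (MonoidAlgebra R G) := by
  classical
  intro a b hab
  by_contra hne
  set δ := b * a - 1 with hδ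
  have hδ0 : δ ≠ 0 := fun h0 => hne (sub_eq_zero.1 h0)
  set S := δ.coeff.support with hS
  set T : Finset G := ((S ×ˢ S).image fun q => q.1⁻¹ * q.2).filter fun x => x ≠ 1 with hT
  obtain ⟨M, hM1, hM5, hDF⟩ := h T (fun x hx => (Finset.mem_filter.1 hx).2)
  have hinj : Set.InjOn (QuotientGroup.mk' M) (S : Set G) := by
    intro s hs t ht hst
    by_contra hst'
    have h1 : s⁻¹ * t ∈ M := by
      rw [← QuotientGroup.eq]; exact hst
    refine hM5 (s⁻¹ * t) ?_ h1
    rw [hT, Finset.mem_filter]
    refine ⟨Finset.mem_image.2 ⟨(s, t), Finset.mem_product.2 ⟨hs, ht⟩, rfl⟩, ?_⟩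
    intro h2
    exact hst' (inv_mul_eq_one.1 h2)
  set π := MonoidAlgebra.mapDomainRingHom R (QuotientGroup.mk' M) with hπ
  have h1 : π b * π a = 1 := hDF _ _ (by rw [← map_mul, hab, map_one])
  have h2 : π δ = 0 := by rw [hδ, map_sub, map_one, map_mul, h1, sub_self]
  obtain ⟨g, hg⟩ : ∃ g, g ∈ S := by
    by_contra hcon
    push Not at hcon
    apply hδ0
    rw [← MonoidAlgebra.coeff_eq_zero, ← Finsupp.support_eq_empty]
    exact Finset.eq_empty_of_forall_notMem hcon
  have h3 : (π δ).coeff (QuotientGroup.mk' M g) = δ.coeff g :=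
    Finsupp.mapDomain_apply' (S : Set G) δ.coeff (by rw [hS]) hinj hg
  rw [h2] at h3
  exact (Finsupp.mem_support_iff.1 hg) (by simpa using h3.symm)

lemma DF.of_finite_group {K : Type*} [Field K] {n : ℕ} {G : Type*} [Group G] [Finite G] :
    DF (MonoidAlgebra (Matrix (Fin n) (Fin n) K) G) := by
  have : FiniteDimensional K (MonoidAlgebra (Matrix (Fin n) (Fin n) K) G) := by
    have e : MonoidAlgebra (Matrix (Fin n) (Fin n) K) G ≃ₗ[K] (G →₀ Matrix (Fin n) (Fin n) K) :=
      { toFun := fun x => x.coeff
        invFun := fun x => MonoidAlgebra.ofCoeff x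
        left_inv := fun _ => rfl
        right_inv := fun _ => rfl
        map_add' := fun _ _ => rfl
        map_smul' := fun _ _ => rfl }
    exact Module.Finite.equiv e.symm
  exact DF.of_finiteDimensional (K := K)

lemma exists_finiteIndex_separating {G : Type*} [Group G] [Group.ResiduallyFinite G]
    (T : Finset G) (hT : ∀ x ∈ T, x ≠ 1) :
    ∃ (M : Subgroup G) (_ : M.Normal), M.FiniteIndex ∧ ∀ x ∈ T, x ∉ M := by
  classical
  induction T using Finset.induction_on with
  | empty => exact ⟨⊤, inferInstance, inferInstance, by simp⟩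
  | insert a T _ ih =>
    obtain ⟨M, hM1, hM2, hM3⟩ := ih fun x hx => hT x (Finset.mem_insert_of_mem hx)
    obtain ⟨H, hH⟩ := Group.exists_finiteIndexNormalSubgroup_notMem a
      (hT a (Finset.mem_insert_self _ _))
    refine ⟨M ⊓ H.toSubgroup, inferInstance, inferInstance, ?_⟩
    intro x hx hxM
    rcases Finset.mem_insert.1 hx with rfl | hx
    · exact hH hxM.2
    · exact hM3 x hx hxM.1

/-- residually finite groups -/
theorem DF.of_residuallyFinite {K : Type*} [Field K] {n : ℕ} {G : Type*} [Group G]
    [Group.ResiduallyFinite G] : DF (MonoidAlgebra (Matrix (Fin n) (Fin n) K) G) := by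
  refine DF.of_separation fun T hT => ?_
  obtain ⟨M, hM1, hM2, hM3⟩ := exists_finiteIndex_separating T hT
  exact ⟨M, hM1, hM3, DF.of_finite_group⟩

/-- every element with small support can be written in the form `el` -/
lemma exists_el {R : Type*} [Ring R] {G : Type*} [Group G] (n : ℕ) :
    ∀ a : MonoidAlgebra R G, a.coeff.support.card ≤ n →
      ∃ (g : Fin n → G) (α : Fin n → R), a = el g α := by
  classical
  induction n with
  | zero =>
    intro a ha
    refine ⟨Fin.elim0, Fin.elim0, ?_⟩
    have : a = 0 := by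
      rw [← MonoidAlgebra.coeff_eq_zero, ← Finsupp.support_eq_empty]
      exact Finset.card_eq_zero.1 (Nat.le_zero.1 ha)
    rw [this]
    simp [el]
  | succ n ih =>
    intro a ha
    by_cases h0 : a.coeff.support = ∅
    · refine ⟨fun _ => 1, fun _ => 0, ?_⟩
      rw [Finsupp.support_eq_empty, MonoidAlgebra.coeff_eq_zero] at h0
      rw [h0]
      simp [el]
    · obtain ⟨x, hx⟩ := Finset.nonempty_iff_ne_empty.2 h0
      obtain ⟨g, α, h⟩ := ih (a - MonoidAlgebra.single x (a.coeff x)) (by
        have h1 : (a - MonoidAlgebra.single x (a.coeff x)).coeff.support ⊆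
            a.coeff.support.erase x := by
          intro y hy
          rw [Finsupp.mem_support_iff] at hy
          rw [Finset.mem_erase, Finsupp.mem_support_iff]
          rw [MonoidAlgebra.coeff_sub, Finsupp.sub_apply, MonoidAlgebra.coeff_single,
            Finsupp.single_apply] at hy
          constructor
          · rintro rfl
            simp at hy
          · intro h2
            split_ifs at hy with h3
            · subst h3; simp at hy
            · simp [h2] at hy
        have h2 := Finset.card_le_card h1
        rw [Finset.card_erase_of_mem hx] at h2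
        omega)
      refine ⟨Fin.cons x g, Fin.cons (a.coeff x) α, ?_⟩
      have : el (Fin.cons x g : Fin (n + 1) → G) (Fin.cons (a.coeff x) α : Fin (n + 1) → R) =
          MonoidAlgebra.single x (a.coeff x) + el g α := by
        unfold el
        rw [Fin.sum_univ_succ]
        simp
      rw [this, ← h]
      simp

lemma support_matIso_symm {K : Type*} [Field K] {G : Type*} [Group G] {n m : ℕ}
    (A : Matrix (Fin m) (Fin m) (MonoidAlgebra K G)) (hA : ∀ i j, (A i j).coeff.support.card ≤ n) :
    ((matIso K G m).symm A).coeff.support.card ≤ m * m * n := by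
  classical
  have h1 : ((matIso K G m).symm A).coeff.support ⊆
      (Finset.univ : Finset (Fin m × Fin m)).biUnion fun q => (A q.1 q.2).coeff.support := by
    intro g hg
    rw [Finsupp.mem_support_iff] at hg
    by_contra hcon
    apply hg
    ext i j
    have h2 : A = toMat K G m ((matIso K G m).symm A) := ((matIso K G m).apply_symm_apply A).symm
    simp only [Finset.mem_biUnion, Finset.mem_univ, true_and, not_exists,
      Finsupp.mem_support_iff, not_not] at hcon
    have h3 := hcon (i, j)
    rw [h2, coeff_toMat] at h3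
    simpa using h3
  refine (Finset.card_le_card h1).trans (Finset.card_biUnion_le.trans ?_)
  refine (Finset.sum_le_card_nsmul _ _ n fun q _ => hA q.1 q.2).trans ?_
  simp

/-- uniform theorem in matrix form -/
theorem uniform_matrix (n m : ℕ) : ∃ N₀ : ℕ, ∀ p : ℕ, N₀ < p → p.Prime →
    ∀ (K : Type v) [Field K] [CharP K p] (G : Type u) [Group G]
      (A B : Matrix (Fin m) (Fin m) (MonoidAlgebra K G)),
      (∀ i j, (A i j).coeff.support.card ≤ n) → (∀ i j, (B i j).coeff.support.card ≤ n) →
      A * B = 1 → B * A = 1 := by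
  obtain ⟨N₀, h⟩ := uniform.{u, v} (m * m * n) m
  refine ⟨N₀, fun p hp hp' K _ _ G _ A B hA hB hAB => ?_⟩
  obtain ⟨g, a, ha⟩ := exists_el _ _ (support_matIso_symm A hA)
  obtain ⟨g', b, hb⟩ := exists_el _ _ (support_matIso_symm B hB)
  have h1 : el g a * el g' b = 1 := by
    rw [← ha, ← hb, ← map_mul, hAB, map_one]
  have h2 := h p hp hp' K G g g' a b h1
  rw [← ha, ← hb, ← map_mul] at h2
  exact (matIso K G m).symm.injective (by rw [h2, map_one])

theorem DF_char_zero {K : Type*} [Field K] [CharZero K] {G : Type*} [Group G] {m : ℕ} :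
    DF (MonoidAlgebra (Matrix (Fin m) (Fin m) K) G) := by
  classical
  intro a b hab
  obtain ⟨n, hn⟩ : ∃ n, n = max a.coeff.support.card b.coeff.support.card := ⟨_, rfl⟩
  obtain ⟨g, α, ha⟩ := exists_el n a (hn ▸ le_max_left _ _)
  obtain ⟨h, β, hb⟩ := exists_el n b (hn ▸ le_max_right _ _)
  rw [ha, hb] at hab ⊢
  exact char_zero_el g h α β hab

lemma stablyFinite_iff {K : Type*} [Field K] {G : Type*} [Group G] :
    IsStablyFiniteRing (MonoidAlgebra K G) ↔
      ∀ n, DF (MonoidAlgebra (Matrix (Fin n) (Fin n) K) G) := by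
  rw [isStablyFiniteRing_iff]
  refine forall_congr' fun n => ?_
  rw [isDedekindFiniteMonoid_iff]
  constructor
  · intro h
    exact DF.of_equiv (matIso K G n) (fun a b hab => h hab)
  · intro h a b hab
    exact DF.of_equiv (matIso K G n).symm h a b hab

end Vale.Agent.DirFin
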