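import Vale.Agent.DirFin.CharZero

/-! Uniform direct finiteness in large characteristic. -/

set_option linter.unusedSectionVars false

universe u v

namespace Vale.Agent.DirFin

open Classical in
lemma coeff_el_mul {R : Type*} [Ring R] {G : Type*} [Group G] {n : ℕ} (g h : Fin n → G)
    (a b : Fin n → R) (x : G) : (el g a * el h b).coeff x =
      ∑ q : Fin n × Fin n, if g q.1 * h q.2 = x then a q.1 * b q.2 else 0 := by
  unfold el
  rw [Finset.sum_mul_sum, Fintype.sum_prod_type, MonoidAlgebra.coeff_sum, Finsupp.finsetSum_apply]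
  refine Finset.sum_congr rfl fun i _ => ?_
  rw [MonoidAlgebra.coeff_sum, Finsupp.finsetSum_apply]
  refine Finset.sum_congr rfl fun j _ => ?_
  rw [MonoidAlgebra.single_mul_single, MonoidAlgebra.coeff_single, Finsupp.single_apply]

open Classical in
/-- combinatorial form of the equation `(∑ aᵢ gᵢ) (∑ bⱼ hⱼ) = 1` -/
def Cond {R : Type*} [Ring R] {n : ℕ} (E : Fin n × Fin n → Fin n × Fin n → Prop)
    (U : Fin n × Fin n → Prop) (a b : Fin n → R) : Prop :=
  (∀ q, (∑ q' : Fin n × Fin n, if E q q' then a q'.1 * b q'.2 else 0) = if U q then 1 else 0) ∧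
    ((∃ q, U q) ∨ (1 : R) = 0)

lemma el_mul_eq_one_iff {R : Type*} [Ring R] {G : Type*} [Group G] {n : ℕ} (g h : Fin n → G)
    (a b : Fin n → R) : el g a * el h b = 1 ↔
      Cond (fun q q' => g q'.1 * h q'.2 = g q.1 * h q.2) (fun q => g q.1 * h q.2 = 1) a b := by
  classical
  have h1 : ∀ x : G, (1 : MonoidAlgebra R G).coeff x = if x = 1 then 1 else 0 := by
    intro x
    rw [MonoidAlgebra.one_def, MonoidAlgebra.coeff_single, Finsupp.single_apply]
    simp only [eq_comm]
  constructor
  · intro hab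
    refine ⟨fun q => ?_, ?_⟩
    · have h2 := congrArg (fun z => z.coeff (g q.1 * h q.2)) hab
      simp only [coeff_el_mul, h1] at h2
      convert h2 using 2
    · by_cases hU : ∃ q : Fin n × Fin n, g q.1 * h q.2 = 1
      · exact Or.inl hU
      · right
        have h2 := congrArg (fun z => z.coeff (1 : G)) hab
        simp only [coeff_el_mul, h1, if_true] at h2
        rw [← h2]
        refine Finset.sum_eq_zero fun q _ => ?_
        rw [if_neg fun h3 => hU ⟨q, h3⟩]
  · rintro ⟨hE, hU⟩
    ext x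
    rw [coeff_el_mul, h1]
    by_cases hx : ∃ q : Fin n × Fin n, g q.1 * h q.2 = x
    · obtain ⟨q, rfl⟩ := hx
      have := hE q
      convert this using 2
    · have h3 : (∑ q : Fin n × Fin n, if g q.1 * h q.2 = x then a q.1 * b q.2 else 0) = 0 :=
        Finset.sum_eq_zero fun q _ => by rw [if_neg fun h3 => hx ⟨q, h3⟩]
      rw [h3]
      by_cases hx1 : x = 1
      · rw [if_pos hx1]
        rcases hU with ⟨q, hq⟩ | h4
        · exact absurd ⟨q, hq.trans hx1.symm⟩ hx
        · exact h4.symm
      · rw [if_neg hx1]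

section Ultra

variable (K : ℕ → Type v) [∀ N, Field (K N)] (U : Ultrafilter ℕ)

/-- the ideal of sequences vanishing along the ultrafilter -/
def uIdeal : Ideal (∀ N, K N) where
  carrier := {f | ∀ᶠ N in (U : Filter ℕ), f N = 0}
  add_mem' := fun {a b} ha hb => by
    filter_upwards [ha, hb] with N h1 h2
    rw [Pi.add_apply, h1, h2, add_zero]
  zero_mem' := Filter.Eventually.of_forall fun _ => rfl
  smul_mem' := fun c f hf => by
    filter_upwards [hf] with N h1
    show c N * f N = 0
    rw [h1, mul_zero]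

lemma mem_uIdeal (f : ∀ N, K N) : f ∈ uIdeal K U ↔ ∀ᶠ N in (U : Filter ℕ), f N = 0 := Iff.rfl

instance : (uIdeal K U).IsPrime where
  ne_top' := by
    intro h
    have h1 : (1 : ∀ N, K N) ∈ uIdeal K U := by rw [h]; trivial
    obtain ⟨N, hN⟩ := ((mem_uIdeal K U _).1 h1).exists
    exact one_ne_zero hN
  mem_or_mem' := by
    intro x y hxy
    rw [mem_uIdeal] at hxy
    rw [mem_uIdeal, mem_uIdeal, ← Ultrafilter.eventually_or]
    filter_upwards [hxy] with N h1
    exact mul_eq_zero.1 h1

/-- existence of the ultraproduct field -/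
lemma exists_ultraproduct : ∃ (L : Type v) (_ : Field L) (θ : (∀ N, K N) →+* L),
    ∀ f, θ f = 0 ↔ ∀ᶠ N in (U : Filter ℕ), f N = 0 := by
  refine ⟨FractionRing ((∀ N, K N) ⧸ uIdeal K U), inferInstance,
    (algebraMap ((∀ N, K N) ⧸ uIdeal K U) (FractionRing ((∀ N, K N) ⧸ uIdeal K U))).comp
      (Ideal.Quotient.mk _), fun f => ?_⟩
  rw [RingHom.comp_apply, ← map_zero (algebraMap ((∀ N, K N) ⧸ uIdeal K U)
    (FractionRing ((∀ N, K N) ⧸ uIdeal K U))),
    (IsFractionRing.injective ((∀ N, K N) ⧸ uIdeal K U)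
      (FractionRing ((∀ N, K N) ⧸ uIdeal K U))).eq_iff,
    Ideal.Quotient.eq_zero_iff_mem, mem_uIdeal]

variable {K U} {L : Type*} [Field L] (θ : (∀ N, K N) →+* L) (m : ℕ)

/-- matrices -/
def Theta : (∀ N, Matrix (Fin m) (Fin m) (K N)) →+* Matrix (Fin m) (Fin m) L where
  toFun X := Matrix.of fun k l => θ fun N => X N k l
  map_one' := by
    ext k l
    rw [Matrix.of_apply]
    by_cases h : k = l
    · subst h
      rw [Matrix.one_apply_eq]
      rw [← map_one θ]
      congr 1
      funext N
      exact Matrix.one_apply_eq _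
    · rw [Matrix.one_apply_ne h]
      rw [← map_zero θ]
      congr 1
      funext N
      exact Matrix.one_apply_ne h
  map_zero' := by
    ext k l
    exact map_zero θ
  map_add' X Y := by
    ext k l
    exact map_add θ _ _
  map_mul' X Y := by
    ext k l
    rw [Matrix.mul_apply]
    simp only [Matrix.of_apply]
    simp only [← map_mul]
    rw [← map_sum]
    congr 1
    funext N
    rw [Finset.sum_apply]
    rfl

variable (hθ : ∀ f, θ f = 0 ↔ ∀ᶠ N in (U : Filter ℕ), f N = 0)

include hθ

lemma Theta_eq_zero (X : ∀ N, Matrix (Fin m) (Fin m) (K N)) :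
    Theta θ m X = 0 ↔ ∀ᶠ N in (U : Filter ℕ), X N = 0 := by
  constructor
  · intro h
    have h1 : ∀ k l, ∀ᶠ N in (U : Filter ℕ), X N k l = 0 := fun k l => by
      rw [← hθ]
      exact congrFun (congrFun h k) l
    have h2 : ∀ᶠ N in (U : Filter ℕ), ∀ k l, X N k l = 0 :=
      Filter.eventually_all.2 fun k => Filter.eventually_all.2 fun l => h1 k l
    filter_upwards [h2] with N h3
    ext k l
    exact h3 k l
  · intro h
    ext k l
    show θ _ = 0
    rw [hθ]
    filter_upwards [h] with N h1
    rw [h1]; rfl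

lemma Theta_eq_iff (X Y : ∀ N, Matrix (Fin m) (Fin m) (K N)) :
    Theta θ m X = Theta θ m Y ↔ ∀ᶠ N in (U : Filter ℕ), X N = Y N := by
  rw [← sub_eq_zero, ← map_sub, Theta_eq_zero θ m hθ]
  simp only [Pi.sub_apply, sub_eq_zero]

variable {m} in
lemma cond_iff {n : ℕ} (E : Fin n × Fin n → Fin n × Fin n → Prop)
    (V : Fin n × Fin n → Prop) (a b : ∀ N, Fin n → Matrix (Fin m) (Fin m) (K N)) :
    Cond E V (fun i => Theta θ m fun N => a N i) (fun i => Theta θ m fun N => b N i) ↔
      ∀ᶠ N in (U : Filter ℕ), Cond E V (a N) (b N) := by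
  classical
  unfold Cond
  rw [Filter.eventually_and, Filter.eventually_all]
  refine and_congr (forall_congr' fun q => ?_) ?_
  · have h1 : (∑ q' : Fin n × Fin n, if E q q' then (Theta θ m fun N => a N q'.1) *
        (Theta θ m fun N => b N q'.2) else 0) = Theta θ m (fun N =>
          ∑ q' : Fin n × Fin n, if E q q' then a N q'.1 * b N q'.2 else 0) := by
      have h2 : (fun N => ∑ q' : Fin n × Fin n, if E q q' then a N q'.1 * b N q'.2 else 0) =
          ∑ q' : Fin n × Fin n, if E q q' then (fun N => a N q'.1) * (fun N => b N q'.2)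
            else 0 := by
        funext N
        rw [Finset.sum_apply]
        refine Finset.sum_congr rfl fun q' _ => ?_
        split_ifs <;> rfl
      rw [h2, map_sum]
      refine Finset.sum_congr rfl fun q' _ => ?_
      split_ifs
      · rw [map_mul]
      · rw [map_zero]
    have h3 : (if V q then (1 : Matrix (Fin m) (Fin m) L) else 0) =
        Theta θ m (fun N => if V q then 1 else 0) := by
      split_ifs
      · exact (map_one _).symm
      · exact (map_zero _).symm
    rw [h1, h3]
    exact Theta_eq_iff θ m hθ _ _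
  · by_cases hV : ∃ q, V q
    · simp [hV]
    · simp only [hV, false_or]
      rw [← map_one (Theta θ m), Theta_eq_zero θ m hθ]
      rfl

end Ultra

/-- patterns -/
abbrev Pat (n : ℕ) := ((Fin n × Fin n → Fin n × Fin n → Prop) × (Fin n × Fin n → Prop)) ×
  ((Fin n × Fin n → Fin n × Fin n → Prop) × (Fin n × Fin n → Prop))

/-- the pattern of a pair of lists -/
def pat {G : Type*} [Group G] {n : ℕ} (g h : Fin n → G) : Pat n :=
  ((fun q q' => g q'.1 * h q'.2 = g q.1 * h q.2, fun q => g q.1 * h q.2 = 1),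
    (fun q q' => h q'.1 * g q'.2 = h q.1 * g q.2, fun q => h q.1 * g q.2 = 1))

/-- **Uniform theorem**. -/
theorem uniform (n m : ℕ) : ∃ N₀ : ℕ, ∀ p : ℕ, N₀ < p → p.Prime →
    ∀ (K : Type v) [Field K] [CharP K p] (G : Type u) [Group G] (g h : Fin n → G)
      (a b : Fin n → Matrix (Fin m) (Fin m) K),
      el g a * el h b = 1 → el h b * el g a = 1 := by
  by_contra hcon
  push Not at hcon
  choose p hp hprime K fK cK G gG g h a b h1 h2 using hcon
  set U : Ultrafilter ℕ := Filter.hyperfilter ℕ with hU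
  -- the pattern is eventually constant
  obtain ⟨t, ht⟩ : ∃ t : Pat n, ∀ᶠ N in (U : Filter ℕ), pat (g N) (h N) = t := by
    obtain ⟨t, ht⟩ := (U.map fun N => pat (g N) (h N)).eq_pure_of_finite
    refine ⟨t, ?_⟩
    have : {t} ∈ (U.map fun N => pat (g N) (h N)) := by
      rw [ht]
      exact Set.mem_singleton t
    exact this
  obtain ⟨M, hM⟩ := ht.exists
  obtain ⟨L, fL, θ, hθ⟩ := exists_ultraproduct K U
  have hchar : CharZero L := by
    refine charZero_of_inj_zero fun z hz => ?_
    by_contra hz0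
    have h3 : θ (z : ∀ N, K N) = 0 := by rw [map_natCast]; exact hz
    rw [hθ] at h3
    have h4 : ∀ᶠ N in (U : Filter ℕ), N < z := by
      filter_upwards [h3] with N hN
      have h5 : ((z : ℕ) : K N) = 0 := hN
      have h6 : p N ∣ z := (CharP.cast_eq_zero_iff (K N) (p N) z).1 h5
      exact (hp N).trans_le (Nat.le_of_dvd (Nat.pos_of_ne_zero hz0) h6)
    exact Filter.notMem_hyperfilter_of_finite (Set.finite_lt_nat z) h4
  -- first equation in the limit
  have e1 : ∀ᶠ N in (U : Filter ℕ), Cond t.1.1 t.1.2 (a N) (b N) := by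
    filter_upwards [ht] with N hN
    have := (el_mul_eq_one_iff (g N) (h N) (a N) (b N)).1 (h1 N)
    rw [← hN]
    exact this
  have e2 := (cond_iff θ hθ t.1.1 t.1.2 a b).2 e1
  have e3 : el (g M) (fun i => Theta θ m fun N => a N i) *
      el (h M) (fun i => Theta θ m fun N => b N i) = 1 := by
    rw [el_mul_eq_one_iff]
    rw [← hM] at e2
    exact e2
  have e4 := char_zero_el _ _ _ _ e3
  rw [el_mul_eq_one_iff] at e4
  have e5 : Cond t.2.1 t.2.2 (fun i => Theta θ m fun N => b N i)
      (fun i => Theta θ m fun N => a N i) := by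
    rw [← hM]
    exact e4
  have e6 := (cond_iff θ hθ t.2.1 t.2.2 b a).1 e5
  obtain ⟨N, hN1, hN2⟩ := (e6.and ht).exists
  apply h2 N
  rw [el_mul_eq_one_iff]
  rw [← hN2] at hN1
  exact hN1

end Vale.Agent.DirFin
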